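import Vale.Agent.P352X.R.GEN
import Vale.Agent.P352X.R.FAR
import Vale.Agent.P352X.R.GRP.C
import Vale.Agent.P352X.Api2c
import Vale.Agent.P352X.Api1C

/-!
# P352X, row PW, part A: algebra of the smeared fields, charges, decay under the scaling
-/

set_option linter.all false

open MeasureTheory Filter Topology Set
open scoped SchwartzMap ComplexConjugate ENNReal ContDiff

namespace Vale.Agent.P352X

open Vale.Agent.P352 Vale.Agent.P352.GF Vale.Agent.P352.BW Vale.Agent.P352.H246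
open Vale.Agent.P352.H496 Vale.Agent.P352.H755 Vale.Agent.P352.H15
open UniformSpace (Completion)
open Complex (I)

noncomputable section

namespace Pw

variable {D : Type*} [NormedAddCommGroup D] [InnerProductSpace ℂ D] (c : Ctx D)

/-- tensor test functions -/
def TT (F : Ix → Ix → Fn) : Prop := ∀ m n, GF.IsTest (F m n)

lemma T_adj (m n : Ix) {f : Fn} (hf : GF.IsTest f) : Adj (c.T m n f) (c.T m n (bar f)) :=
  fun v w => c.hT.herm m n f v w hf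

lemma Tf_adj {F : Ix → Ix → Fn} (hF : TT F) : Adj (c.Tf F) (c.Tf fun m n => bar (F m n)) :=
  fun v w => by simp only [Ctx.Tf, sum_inner, inner_sum, T_adj c _ _ (hF _ _) v w]

lemma Thf_adj {f : Fn} (hf : GF.IsTest f) : Adj (c.Thf f) (c.Thf (bar f)) := fun v w => by
  simp only [Ctx.Thf, GF.tr, sum_inner, inner_sum, inner_smul_left, inner_smul_right,
    Complex.conj_ofReal, T_adj c _ _ hf v w]

lemma adj_sum {X Y : D → D} (h : Adj X Y) {ι : Type*} (s : Finset ι) (a : ι → ℂ) (v : ι → D) :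
    X (∑ i ∈ s, a i • v i) = ∑ i ∈ s, a i • X (v i) :=
  ext_inner_right ℂ fun u => by simp only [h _ u, sum_inner, inner_smul_left]

lemma adj_sum' {X Y : D → D} (h : Adj X Y) {ι : Type*} (s : Finset ι) (v : ι → D) :
    X (∑ i ∈ s, v i) = ∑ i ∈ s, X (v i) := by simpa using adj_sum h s (fun _ => 1) v

lemma adj_zero {X Y : D → D} (h : Adj X Y) : X 0 = 0 :=
  ext_inner_right ℂ fun u => by rw [h, inner_zero_left, inner_zero_left]

lemma Tf_lin {F G : Ix → Ix → Fn} (hF : TT F) (hG : TT G) (a : ℂ) (v : D) :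
    c.Tf (fun m n x => F m n x + a * G m n x) v = c.Tf F v + a • c.Tf G v := by
  simp only [Ctx.Tf, Finset.smul_sum, ← Finset.sum_add_distrib]
  exact Finset.sum_congr rfl fun m _ => Finset.sum_congr rfl fun n _ =>
    c.Q.lin _ _ _ a v (Grp.T_fld c.hT m n) (hF m n) (hG m n)

lemma Tv_lin {F G : Ix → Ix → Fn} (hF : TT F) (hG : TT G) (a : ℂ) :
    c.Tv (fun m n x => F m n x + a * G m n x) = c.Tv F + a • c.Tv G := by
  rw [Ctx.Tv, Tf_lin c hF hG, Completion.coe_add, Completion.coe_smul]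
  rfl

lemma TT.lin {F G : Ix → Ix → Fn} (hF : TT F) (hG : TT G) (a : ℂ) :
    TT fun m n x => F m n x + a * G m n x := fun m n => Ap.sw_lin a (hF m n) (hG m n)

/-- locality -/
lemma comm {F : Ix → Ix → Fn} (hF : TT F) {f : Fn} (hf : GF.IsTest f)
    (h : ∀ m n, Sep (F m n) f) (v : D) : c.Tf F (c.Thf f v) = c.Thf f (c.Tf F v) := by
  rw [Ctx.Tf, Ctx.Tf, adj_sum' (Thf_adj c hf)]
  refine Finset.sum_congr rfl fun m _ => ?_
  rw [adj_sum' (Thf_adj c hf)]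
  refine Finset.sum_congr rfl fun n _ => ?_
  rw [Ctx.Thf, GF.tr, adj_sum (T_adj c m n (hF m n)), Ctx.Thf, GF.tr]
  exact Finset.sum_congr rfl fun k _ => by
    rw [c.Q.loc _ _ _ _ v (c.hT.bose m n) (Grp.T_fld c.hT k k) (hF m n) hf (h m n)]

/-- the three point function of the row -/
def Ph (f1 f3 : Fn) (F : Ix → Ix → Fn) : ℂ :=
  inner ℂ (c.Th (bar f1)) ((c.Tf F (c.Thf f3 c.Q.vac) : D) : Completion D)

lemma Ph_eq (f1 f3 : Fn) (F : Ix → Ix → Fn) :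
    Ph c f1 f3 F = inner ℂ (c.Thf (bar f1) c.Q.vac) (c.Tf F (c.Thf f3 c.Q.vac)) :=
  Completion.inner_coe _ _

lemma Ph_lin (f1 f3 : Fn) {F G : Ix → Ix → Fn} (hF : TT F) (hG : TT G) (a : ℂ) :
    Ph c f1 f3 (fun m n x => F m n x + a * G m n x) = Ph c f1 f3 F + a * Ph c f1 f3 G := by
  simp only [Ph_eq, Tf_lin c hF hG, inner_add_right, inner_smul_right]

/-- real tensor functions that are spacelike to the first leg -/
lemma Ph_sep {f1 f3 : Fn} (h1 : GF.IsTest f1) {F : Ix → Ix → Fn} (hF : TT F)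
    (hr : ∀ m n, bar (F m n) = F m n) (h : ∀ m n, Sep (F m n) (bar f1)) :
    Ph c f1 f3 F = inner ℂ (c.Tv F) ((c.Thf f1 (c.Thf f3 c.Q.vac) : D) : Completion D) := by
  have a := Tf_adj c hF
  simp only [hr] at a
  rw [Ph_eq, ← a, comm c hF (Ap.test_bar h1) h, Thf_adj c (Ap.test_bar h1), Ap.bar_bar, Ctx.Tv,
    Completion.inner_coe]

variable {c}

lemma gn_dom {W X} (K : Gen.Fl c W X) (g : GRP c) (v : D) :
    Gn W (v : Completion D) (c.A X v : D) := by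
  have := K.dom g v
  rwa [Completion.coe_smul] at this

lemma A_vac {W X} (K : Gen.Fl c W X) (g : GRP c) : c.A X c.Q.vac = 0 := by
  have h := gn_dom K g c.Q.vac
  obtain ⟨L, a, w, b, -, hW, -⟩ := K
  have h0 : Gn W (c.Q.vac : Completion D) 0 := gn_of_fix fun t => by
    rw [hW]
    exact g.vac _ _ _
  exact Completion.coe_injective D ((h.unique h0).trans (Completion.coe_zero).symm)

lemma Th_sum (f : Fn) :
    c.Th f = ∑ m, (eta m : ℂ) • ((c.T m m f c.Q.vac : D) : Completion D) := by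
  rw [Ctx.Th, Ctx.Thf, GF.tr]
  change Completion.toComplL (𝕜 := ℂ) _ = _
  simp only [map_sum, map_smul]
  rfl

/-- the Ward identity for the trace -/
theorem ward (hc : CH c) (g : GRP c) {W X} (K : Gen.Fl c W X) (hX : IsSim 0 X) {χ Ξ : V → ℝ}
    {f1 f3 : Fn} (h3 : GF.IsTest f3) (h3' : HasCompactSupport f3) (h : Chg (tsupport f3) χ Ξ)
    (hF : TT (dens χ Ξ X)) : Ph c f1 f3 (dens χ Ξ X) =
      inner ℂ ((c.Thf (bar f3) (c.Thf (bar f1) c.Q.vac) : D) : Completion D) (c.Tv (dens χ Ξ X)) +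
        inner ℂ (c.Th (bar f1)) (gen W (c.Th f3)) := by
  have e := fun m => hc _ χ Ξ X (c.T m m) f3 c.Q.vac (c.Thf (bar f1) c.Q.vac) h3' h hX
    (Grp.T_fld c.hT m m) h3 subset_rfl
  simp only [A_vac K g, adj_zero (T_adj c _ _ h3), sub_zero, inner_sub_right,
    sub_eq_iff_eq_add'] at e
  have k : Gn W (c.Th f3) (∑ m, (eta m : ℂ) • ((c.A X (c.T m m f3 c.Q.vac) : D) : Completion D)) :=
    (Gn.sum _ fun m _ => (gn_dom K g _).smul _).cast (Th_sum f3) rfl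
  rw [k.gen_eq, Ph_eq, Ctx.Tv, Completion.inner_coe, (Thf_adj c h3).symm]
  conv_lhs => rw [Ctx.Thf.eq_1 c f3, GF.tr, adj_sum (Tf_adj c hF)]
  conv_rhs => rw [Ctx.Thf.eq_1 c f3, GF.tr]
  simp only [inner_sum, inner_smul_right, e, Ctx.Th, Completion.inner_coe, mul_add,
    Finset.sum_add_distrib]

/-! ### decay under the scaling -/

lemma Tv_hk_smul (a b : ℝ) (h k : V) {f : Fn} (hf : GF.IsTest f) :
    c.Tv (hk (a • h) (b • k) f) = ((a * b : ℝ) : ℂ) • c.Tv (hk h k f) := by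
  rw [Far.Tv_hk c _ _ hf, Far.Tv_hk c _ _ hf, Finset.smul_sum]
  refine Finset.sum_congr rfl fun m _ => ?_
  rw [Finset.smul_sum]
  refine Finset.sum_congr rfl fun n _ => ?_
  rw [smul_smul, ← Complex.ofReal_mul]
  congr 2
  simp only [Pi.smul_apply, smul_eq_mul]
  ring

theorem nrm_kL (hg : GRP c) {g : P3 → ℝ} {ρ : ℝ → ℝ} (h1 : Tst g) (h2 : Tst ρ) {L a b : ℝ}
    (hL : 0 < L) {h k : V} (ha : scp L 1 h = a • h) (hb : scp L 1 k = b • k) :
    |a * b| * ‖c.Tv (hk h k (pr (kL g L) ρ))‖ = L * ‖c.Tv (hk h k (pr g ρ))‖ := by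
  obtain ⟨hΛ, hs⟩ := hg.lsc L 1 hL one_pos
  have hq : 0 < Real.sqrt (L * 1) := Real.sqrt_pos.2 (by positivity)
  have hq' : 0 < Real.sqrt L := Real.sqrt_pos.2 hL
  have ht := Ap.test_pr (Ap.tst_kL h1 hL) h2
  set Λ := bst va vb (Real.sqrt (L / 1) - 1) (Real.sqrt (1 / L) - 1)
  have e1 : (fun x => pr (kL g L) ρ (sim (Real.sqrt (L * 1)) Λ 0 x)) = pr g ρ := by
    funext x
    rw [hs]
    simp only [pr, kL, pl_1, pl_2, al_scp, be_scp, tx_scp, mul_one, one_mul, smul_smul]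
    rw [inv_mul_cancel₀ hq'.ne', one_smul, mul_div_cancel_left₀ _ hL.ne']
    rfl
  have e2 : ∀ {h : V} {a : ℝ}, scp L 1 h = a • h → sim 1 Λ 0 h = ((Real.sqrt L)⁻¹ * a) • h := by
    intro h a e
    rw [← hs, sim_smul, mul_one] at e
    rw [mul_smul, ← e, smul_smul, inv_mul_cancel₀ hq'.ne', one_smul]
  have := hg.ten _ Λ 0 h k _ c.Q.vac hq hΛ ht
  rw [e1, e2 ha, e2 hb, c.Q.U_vac _ _ _ hq hΛ] at this
  have e3 := hg.ug_norm (Real.sqrt (L * 1)) Λ 0 (c.Tv (hk h k (pr g ρ)))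
  rw [Ctx.Tv, hg.coe _ _ _ _ hq hΛ, this] at e3
  change ‖c.Tv _‖ = ‖c.Tv _‖ at e3
  rw [← e3, Tv_hk_smul _ _ _ _ ht, norm_smul, Complex.norm_real, Real.norm_eq_abs, ← mul_assoc]
  congr 1
  have e4 : (Real.sqrt L)⁻¹ * a * ((Real.sqrt L)⁻¹ * b) = L⁻¹ * (a * b) := by
    rw [mul_mul_mul_comm, ← mul_inv, Real.mul_self_sqrt hL.le]
  rw [e4, abs_mul L⁻¹, abs_of_pos (inv_pos.2 hL), mul_inv_cancel_left₀ hL.ne']

lemma scp_a (L : ℝ) : scp L 1 va = L • va := null_ext (by simp) (by simp) (by simp)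
lemma scp_b (L : ℝ) : scp L 1 vb = (1 : ℝ) • vb := null_ext (by simp) (by simp) (by simp)
lemma scp_e (L : ℝ) (i : Fin 2) : scp L 1 (ex i) = Real.sqrt L • ex i :=
  null_ext (by simp) (by simp) (by simp)

/-- bounds by `C / sqrt L` -/
def Sm (u : ℝ → ℝ) : Prop := ∃ C, ∀ L, 1 ≤ L → Real.sqrt L * u L ≤ C

lemma Sm.lim {u : ℝ → ℝ} (h : Sm u) (h0 : ∀ L, 0 < L → 0 ≤ u L) : Tendsto u atTop (𝓝 0) := by
  obtain ⟨C, hC⟩ := h
  have := (tendsto_inv_atTop_zero.comp Real.tendsto_sqrt_atTop).mul_const C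
  rw [zero_mul] at this
  refine squeeze_zero' ((eventually_gt_atTop 0).mono h0) ((eventually_ge_atTop 1).mono
    fun L hL => ?_) this
  exact (le_inv_mul_iff₀ (Real.sqrt_pos.2 (one_pos.trans_le hL))).2 (hC L hL)

lemma Sm.add {u v w : ℝ → ℝ} (h : Sm u) (h' : Sm v) (e : ∀ L, 1 ≤ L → w L ≤ u L + v L) : Sm w := by
  obtain ⟨C, hC⟩ := h
  obtain ⟨C', hC'⟩ := h'
  refine ⟨C + C', fun L hL => (mul_le_mul_of_nonneg_left (e L hL) (Real.sqrt_nonneg L)).trans ?_⟩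
  linarith [hC L hL, hC' L hL]

section dec

variable (hg : GRP c) {g : P3 → ℝ} {ρ : ℝ → ℝ} (h1 : Tst g) (h2 : Tst ρ) (i : Fin 2)
include hg h1 h2

lemma sm_aa : Sm fun L => Real.sqrt L * ‖c.Tv (hk va va (pr (kL g L) ρ))‖ :=
  ⟨‖c.Tv (hk va va (pr g ρ))‖, fun L hL => by
    have p := one_pos.trans_le hL
    have := nrm_kL hg h1 h2 p (scp_a L) (scp_a L)
    rw [abs_of_pos (mul_pos p p), mul_assoc] at this
    rw [← mul_assoc, Real.mul_self_sqrt p.le, mul_left_cancel₀ p.ne' this]⟩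

lemma sm_ae : Sm fun L => ‖c.Tv (hk va (ex i) (pr (kL g L) ρ))‖ :=
  ⟨‖c.Tv (hk va (ex i) (pr g ρ))‖, fun L hL => by
    have p := one_pos.trans_le hL
    have := nrm_kL hg h1 h2 p (scp_a L) (scp_e L i)
    rw [abs_of_pos (mul_pos p (Real.sqrt_pos.2 p)), mul_assoc] at this
    rw [mul_left_cancel₀ p.ne' this]⟩

lemma sm_ba : Sm fun L => L⁻¹ * (Real.sqrt L * ‖c.Tv (hk vb va (pr (kL g L) ρ))‖) :=
  ⟨‖c.Tv (hk vb va (pr g ρ))‖, fun L hL => by
    have p := one_pos.trans_le hL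
    have := nrm_kL hg h1 h2 p (scp_b L) (scp_a L)
    rw [one_mul, abs_of_pos p] at this
    rw [mul_left_comm, ← mul_assoc (Real.sqrt L), Real.mul_self_sqrt p.le,
      inv_mul_cancel_left₀ p.ne', mul_left_cancel₀ p.ne' this]⟩

lemma sm_be : Sm fun L => L⁻¹ * ‖c.Tv (hk vb (ex i) (pr (kL g L) ρ))‖ :=
  ⟨‖c.Tv (hk vb (ex i) (pr g ρ))‖, fun L hL => by
    have p := one_pos.trans_le hL
    have := nrm_kL hg h1 h2 p (scp_b L) (scp_e L i)
    rw [one_mul, abs_of_pos (Real.sqrt_pos.2 p)] at this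
    rw [mul_left_comm, this, inv_mul_cancel_left₀ p.ne']⟩

end dec

/-- decay of the plane and face densities of the vector field `X` -/
def Dec (c : Ctx D) (X : V → V) : Prop := ∀ g ρ, Tst g → Tst ρ →
  (Sm fun L => ‖c.Tv (hX va X (pr (kL g L) ρ))‖) ∧
    Sm fun L => L⁻¹ * ‖c.Tv (hX vb X (pr (kL g L) ρ))‖

lemma Sm.of_sqrt {u : ℝ → ℝ} {r : ℝ → ℝ} (h : Sm fun L => r L * (Real.sqrt L * u L))
    (h0 : ∀ L, 1 ≤ L → 0 ≤ r L * u L) : Sm fun L => r L * u L := by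
  obtain ⟨C, hC⟩ := h
  refine ⟨C, fun L hL => le_trans (mul_le_mul_of_nonneg_left ?_ (Real.sqrt_nonneg L)) (hC L hL)⟩
  exact (le_mul_of_one_le_left (h0 L hL) (Real.one_le_sqrt.2 hL)).trans_eq (mul_left_comm _ _ _)

theorem dec_a (hg : GRP c) : Dec c fun _ => va := fun g ρ h1 h2 =>
  ⟨by simpa only [one_mul] using Sm.of_sqrt (r := fun _ => 1) (by
      simpa only [one_mul] using! sm_aa hg h1 h2) fun L _ => by positivity,
    (sm_ba hg h1 h2).of_sqrt fun L hL => by positivity⟩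

theorem dec_e (hg : GRP c) (i : Fin 2) : Dec c fun _ => ex i := fun g ρ h1 h2 =>
  ⟨sm_ae hg h1 h2 i, sm_be hg h1 h2 i⟩

/-- the vector field of `M_i` -/
abbrev XM (i : Fin 2) (z : V) : V := tx z i • va + be z • ex i

lemma tst_x {g : P3 → ℝ} (h : Tst g) (i : Fin 2) : Tst fun y : P3 => y.2 i * g y :=
  Ap.cs_mul_l (by fun_prop) h

lemma tst_t {ρ : ℝ → ℝ} (h : Tst ρ) : Tst fun t => t * ρ t := Ap.cs_mul_l contDiff_id h

lemma hX_M (h : V) (i : Fin 2) (g : P3 → ℝ) (ρ : ℝ → ℝ) : hX h (XM i) (pr g ρ) = fun m n x =>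
    hk h (ex i) (pr g fun t => t * ρ t) m n x +
      1 * hk h va (pr (fun y => y.2 i * g y) ρ) m n x := by
  funext m n x
  simp only [hX, hk, pr, pl_2, Pi.add_apply, Pi.smul_apply, smul_eq_mul]
  push_cast
  ring

lemma hX_M' (h : V) (i : Fin 2) (g : P3 → ℝ) (ρ : ℝ → ℝ) {L : ℝ} (hL : 0 < L) :
    hX h (XM i) (pr (kL g L) ρ) = fun m n x => hk h (ex i) (pr (kL g L) fun t => t * ρ t) m n x +
      (Real.sqrt L : ℂ) * hk h va (pr (kL (fun y => y.2 i * g y) L) ρ) m n x := by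
  have p : (Real.sqrt L : ℂ) ≠ 0 := Complex.ofReal_ne_zero.2 (Real.sqrt_pos.2 hL).ne'
  funext m n x
  simp only [hX, hk, pr, kL, pl_2, Pi.add_apply, Pi.smul_apply, smul_eq_mul]
  push_cast
  field_simp
  ring

lemma TT_hk (h k : V) {g : P3 → ℝ} {ρ : ℝ → ℝ} (h1 : Tst g) (h2 : Tst ρ) :
    TT (hk h k (pr g ρ)) := Ap.test_hk h k (Ap.test_pr h1 h2)

lemma nrm_M (h : V) (i : Fin 2) {g : P3 → ℝ} {ρ : ℝ → ℝ} (h1 : Tst g) (h2 : Tst ρ) {L : ℝ}
    (hL : 0 < L) : ‖c.Tv (hX h (XM i) (pr (kL g L) ρ))‖ ≤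
      ‖c.Tv (hk h (ex i) (pr (kL g L) fun t => t * ρ t))‖ +
        Real.sqrt L * ‖c.Tv (hk h va (pr (kL (fun y => y.2 i * g y) L) ρ))‖ := by
  rw [hX_M' h i g ρ hL, Tv_lin c (TT_hk _ _ (Ap.tst_kL h1 hL) (tst_t h2))
    (TT_hk _ _ (Ap.tst_kL (tst_x h1 i) hL) h2)]
  refine (norm_add_le _ _).trans_eq ?_
  rw [norm_smul, Complex.norm_real, Real.norm_of_nonneg (Real.sqrt_nonneg L)]

theorem dec_M (hg : GRP c) (i : Fin 2) : Dec c (XM i) := fun g ρ h1 h2 =>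
  ⟨(sm_ae hg h1 (tst_t h2) i).add (sm_aa hg (tst_x h1 i) h2) fun L hL =>
      nrm_M _ i h1 h2 (one_pos.trans_le hL),
    (sm_be hg h1 (tst_t h2) i).add (sm_ba hg (tst_x h1 i) h2) fun L hL => by
      rw [← mul_add]
      exact mul_le_mul_of_nonneg_left (nrm_M _ i h1 h2 (one_pos.trans_le hL)) (by positivity)⟩

lemma sim_const (y : V) : IsSim 0 fun _ => y := ⟨y, 0, by simp, by simp⟩

lemma sim_M (i : Fin 2) : IsSim 0 (XM i) := by
  refine ⟨0, fun m => XM i (bas m 1), fun m n => ?_, fun z n => ?_⟩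
  · fin_cases i <;> fin_cases m <;> fin_cases n <;>
      simp [XM, tx, be_eq, bas, va, ex, tv, pt, e2, eta, o]
  · fin_cases i <;> fin_cases n <;>
      simp [XM, tx, be_eq, bas, va, ex, tv, pt, e2, Fin.sum_univ_four] <;> ring

end Pw

end

end Vale.Agent.P352X
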